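import Vale.Agent.P243.Lift

namespace Vale.Agent.Results.P243.AboveThird

open Vale.Agent.P243

/-- Every cylinder covering of a convex body in space has total base area at least a fixed
constant above one third times the smallest shadow area. -/
theorem result (K : Set Point) (m : ℕ) (u : Fin m → Point) (B : Fin m → Set Point)
    (h : IsCovering K m u B) :
    ENNReal.ofReal (1 / 3 + 1 / 10 ^ 28) * Amin K ≤ ∑ i, area (u i) (B i) :=
  above_third h

end Vale.Agent.Results.P243.AboveThird
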