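import Vale.Agent.P243.Bridge

namespace Vale.Agent.Results.P243.CoplanarAxes

open Vale.Agent.P243

/-- Bang's half-area bound for all coverings whose axes are parallel to one common plane, in
particular for all coverings that use at most two axis directions. -/
theorem result (K : Set Point) (m : ℕ) (u : Fin m → Point) (B : Fin m → Set Point)
    (h : IsCovering K m u B) (hu : IsCoplanar m u ∨ IsTwoDirectional m u) :
    Amin K / 2 ≤ ∑ i, area (u i) (B i) :=
  hu.elim (coplanar h) (twoDirections h)

end Vale.Agent.Results.P243.CoplanarAxes
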