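import Vale.Agent.P243.Relative

namespace Vale.Agent.Results.P243.RelativeBelowHalf

open Vale.Agent.P243

/-- A tetrahedron has a covering by four cylinders whose directionwise relative area is at most
`199/400 < 1/2`. -/
theorem result :
    ∃ (K : Set Point) (u : Fin 4 → Point) (B : Fin 4 → Set Point),
      IsCovering K 4 u B ∧
      (∀ i, area (u i) (proj (u i) '' K) ≠ 0 ∧ area (u i) (proj (u i) '' K) ≠ ⊤) ∧
      ∑ i, area (u i) (B i) / area (u i) (proj (u i) '' K) ≤ ENNReal.ofReal (199/400) ∧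
      ∑ i, area (u i) (B i) / area (u i) (proj (u i) '' K) < 1/2 := by
  obtain ⟨K, u, B, h1, h2, h3⟩ := RelExample.relative_counterexample
  refine ⟨K, u, B, h1, h2, h3, lt_of_le_of_lt h3 ?_⟩
  rw [show (1/2 : ENNReal) = ENNReal.ofReal (1/2) by
    rw [ENNReal.ofReal_div_of_pos two_pos, ENNReal.ofReal_one, ENNReal.ofReal_ofNat]]
  exact (ENNReal.ofReal_lt_ofReal_iff (by norm_num)).2 (by norm_num)

end Vale.Agent.Results.P243.RelativeBelowHalf
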