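import Vale.Agent.P243.SymMain
import Mathlib.Analysis.Real.Pi.Bounds

namespace Vale.Agent.Results.P243.Symmetric

open Vale.Agent.P243

/-- Bang's half-area inequality for centrally symmetric convex bodies, with a constant that is
strictly larger than one half. -/
theorem result :
    (1 : ℝ) / 2 < Real.pi / (4 * √2) ∧
      ∀ (K : Set Point) (m : ℕ) (u : Fin m → Point) (B : Fin m → Set Point),
        IsCovering K m u B → (∃ p : Point, ∀ x ∈ K, (2 : ℝ) • p - x ∈ K) →
          ENNReal.ofReal (Real.pi / (4 * √2)) * Amin K ≤ ∑ i, area (u i) (B i) := by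
  refine ⟨?_, fun K m u B h ⟨p, hp⟩ => Sym.symmetric_bound h p hp⟩
  have h2 : √2 < 3 / 2 := by
    rw [Real.sqrt_lt' (by norm_num)]
    norm_num
  rw [lt_div_iff₀ (by positivity)]
  linarith [Real.pi_gt_three]

end Vale.Agent.Results.P243.Symmetric
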